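import Vale.Agent.Helper24.P302.Defs5

/-!
# P302: assembly of the final statement for the instance `inst5`
-/

namespace Vale.Agent.Helper24.P302

open Finset Vale.Agent.Helper7.P302

theorem itemsL5_bounds : ∀ i : Fin 58, 0 < itemsL5.getD i.1 0 ∧ itemsL5.getD i.1 0 ≤ 5040000 := by
  decide

theorem inst5_pos_le (i : Fin 58) : 0 < inst5 i ∧ inst5 i ≤ 1 := by
  have h := itemsL5_bounds i
  unfold inst5
  constructor
  · have : (0 : ℚ) < (itemsL5.getD i.1 0 : ℚ) := by exact_mod_cast h.1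
    positivity
  · rw [div_le_one (by norm_num)]
    exact_mod_cast h.2

/-- One item per bin is a packing, so the set defining `OPT` is nonempty. -/
theorem trivial_packing5 : IsPacking inst5 58 (fun i => i) := by
  intro b
  have : univ.filter (fun i : Fin 58 => i = b) = {b} := by
    ext i; simp
  rw [this, sum_singleton]
  exact (inst5_pos_le b).2

theorem result_of5 (hB : LP inst5 ≤ 174373 / 9300)
    (hC : ∀ (m : ℕ) (f : Fin 58 → Fin m), IsPacking inst5 m f → 20 ≤ m) :
    (∀ i, 0 < inst5 i ∧ inst5 i ≤ 1) ∧ (OPT inst5 : ℝ) - LP inst5 ≥ 11627 / 9300 := by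
  refine ⟨inst5_pos_le, ?_⟩
  have hne : {m : ℕ | ∃ f : Fin 58 → Fin m, IsPacking inst5 m f}.Nonempty :=
    ⟨58, fun i => i, trivial_packing5⟩
  have hmem := Nat.sInf_mem hne
  obtain ⟨f, hf⟩ := hmem
  have h18 : 20 ≤ OPT inst5 := hC _ f hf
  have h18' : (20 : ℝ) ≤ (OPT inst5 : ℝ) := by exact_mod_cast h18
  linarith

end Vale.Agent.Helper24.P302
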