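import Vale.Agent.Helper7.P302.Defs

/-!
# P302: the concrete instance `inst4` (55 items, bin capacity scaled to 5040000)

Same pair-slot system as in `Vale.Agent.Helper7.P302` (slots `slotsL`, the 29 genuine positives),
with 4 dummy positives `817` and 7 outer items.
-/

namespace Vale.Agent.Helper24.P302

open Vale.Agent.Helper7.P302

/-- The 33 positives: the 29 genuine ones and 4 dummies `817`. -/
def posL4 : List ℕ := [
  1, 36, 41, 60, 68, 70, 70, 78, 80, 81, 82, 83, 84, 85, 86, 133, 136, 138, 139, 141, 143, 144,
  400, 403, 405, 406, 408, 410, 411, 817, 817, 817, 817]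

/-- The scaled sizes: 15 bigs `3750000 - c`, 33 smalls `645000 + p`, 7 outer items. -/
def itemsL4 : List ℕ :=
  slotsL.map (fun c => 3750000 - c) ++ posL4.map (fun p => 645000 + p) ++ [
    1440000, 1461000, 1463000, 1670000, 1676000, 1695000, 2155000]

/-- The instance: 55 rational sizes in `(0, 1]`. -/
def inst4 : Fin 55 → ℚ := fun i => (itemsL4.getD i.1 0 : ℚ) / 5040000

end Vale.Agent.Helper24.P302
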