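import Vale.Agent.Helper17.P302HD
import Vale.Agent.Helper24.P302.Defs4

/-!
# P302: the pair-slot bound for the positives `posL4`

A dummy `817` never lies in a fitting pair (every slot is at most `817`, every positive at least
`1`), so the bound for `posL4` follows from the one for `posL2`.
-/

namespace Vale.Agent.Helper24.P302

open Vale.Agent.Helper7.P302

/-- No 14 index-disjoint pairs of positives of `posL4` fit into 14 distinct slots. -/
theorem hD4 (s : Fin 14 → Fin 15) (p q : Fin 14 → Fin 33) (hs : Function.Injective s)
    (hpq : Function.Injective (Sum.elim p q))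
    (hfit : ∀ k, posL4.getD (p k) 0 + posL4.getD (q k) 0 ≤ slotsL.getD (s k) 0) : False := by
  have hslot : ∀ j : Fin 15, slotsL.getD j.1 0 ≤ 817 := by decide
  have hpos : ∀ i : Fin 33, 1 ≤ posL4.getD i.1 0 := by decide
  have hdum : ∀ i : Fin 33, posL4.getD i.1 0 ≤ 816 → i.1 < 29 := by decide
  have heq : ∀ i : Fin 33, i.1 < 29 → posL4.getD i.1 0 = posL2.getD i.1 0 := by decide
  have hp : ∀ k, (p k).1 < 29 := by
    intro k
    apply hdum
    have h1 := hfit k
    have h2 := hslot (s k)
    have h3 := hpos (q k)
    omega
  have hq : ∀ k, (q k).1 < 29 := by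
    intro k
    apply hdum
    have h1 := hfit k
    have h2 := hslot (s k)
    have h3 := hpos (p k)
    omega
  refine hD15b s (fun k => ⟨(p k).1, by have := hp k; omega⟩)
    (fun k => ⟨(q k).1, by have := hq k; omega⟩) hs ?_ ?_
  · intro x y hxy
    apply hpq
    rcases x with k | k <;> rcases y with k' | k' <;>
      simp only [Sum.elim_inl, Sum.elim_inr] at hxy ⊢ <;>
      exact Fin.ext (by simpa using congrArg Fin.val hxy)
  · intro k
    have h1 := hfit k
    rw [heq (p k) (hp k), heq (q k) (hq k)] at h1
    exact h1

end Vale.Agent.Helper24.P302
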