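import Vale.Agent.Helper6.P302LP
import Vale.Agent.Helper24.P302.Defs4

/-!
# P302: the LP upper bound for the instance `inst4` (55 items)
-/

namespace Vale.Agent.Helper24.P302

open Vale.Agent.Helper7.P302

/-- The fractional solution: weight numerators (denominator `4500`) and configurations. -/
def cert4 : List (ℕ × List ℕ) := [
  (360, [645001, 645143, 3749855]),
  (4140, [645001, 645411, 3749582]),
  (1080, [645036, 645086, 3749866]),
  (3420, [645036, 645086, 3749871]),
  (1080, [645041, 645085, 3749871]),
  (3420, [645041, 645144, 3749813]),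
  (3240, [645060, 645070, 3749866]),
  (1260, [645060, 645085, 3749855]),
  (2250, [645068, 645068, 3749864]),
  (2880, [645070, 645070, 3749855]),
  (2250, [645078, 645082, 3749840]),
  (2250, [645078, 645084, 3749838]),
  (2250, [645080, 645080, 3749840]),
  (2250, [645081, 645081, 3749838]),
  (2250, [645082, 645084, 3749834]),
  (2250, [645083, 645083, 3749834]),
  (1080, [645085, 645085, 3749813]),
  (2250, [645133, 645139, 3749728]),
  (2250, [645133, 645143, 3749724]),
  (2250, [645136, 645136, 3749728]),
  (2250, [645138, 645138, 3749724]),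
  (1170, [645139, 645143, 3749717]),
  (1080, [645139, 645144, 3749717]),
  (2250, [645141, 645141, 3749717]),
  (360, [645143, 645143, 3749582]),
  (2250, [645400, 645406, 3749193]),
  (2250, [645400, 645410, 3749190]),
  (2250, [645403, 645403, 3749193]),
  (2250, [645405, 645405, 3749190]),
  (2250, [645406, 645410, 3749183]),
  (2250, [645408, 645408, 3749183]),
  (2250, [645817, 3749864]),
  (180, [645817, 3749866]),
  (1125, [645817, 2155000, 2155000]),
  (750, [645817, 1463000, 1463000, 1463000]),
  (74, [1670000, 1670000, 1670000]),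
  (1500, [1676000, 1676000, 1676000]),
  (2139, [1670000, 1670000, 1695000]),
  (2361, [645817, 645817, 645817, 645817, 645817, 1695000]),
  (2250, [1440000, 1440000, 2155000]),
  (360, [645411, 1461000, 1461000, 1463000]),
  (1890, [645817, 1461000, 1461000, 1463000])]

theorem cert4_mem : ∀ wl ∈ cert4, ∀ s ∈ wl.2, s ∈ itemsL4 := by decide

theorem cert4_size : ∀ wl ∈ cert4, wl.2.sum ≤ 5040000 := by decide

theorem cert4_cov : ∀ s ∈ itemsL4,
    4500 * itemsL4.count s ≤ (cert4.map (fun wl => wl.2.count s * wl.1)).sum := by decide

theorem cert4_total : (cert4.map Prod.fst).sum = 79949 := by decide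

/-- The configuration LP value of the instance is at most `79949 / 4500`. -/
theorem lp_le4 : LP inst4 ≤ 79949 / 4500 := by
  have h := Vale.Agent.Helper6.P302LP.lp_le_of_cert' 55 itemsL4 (by decide) 5040000 4500
    (by norm_num) (by norm_num) cert4 cert4_mem cert4_size cert4_cov
  rw [cert4_total] at h
  have e : inst4 = (fun i : Fin 55 => (itemsL4.getD i.1 0 : ℚ) / ((5040000 : ℕ) : ℚ)) := by
    funext i
    unfold inst4
    norm_num
  rw [e]
  calc _ ≤ ((79949 : ℕ) : ℝ) / ((4500 : ℕ) : ℝ) := h
    _ = 79949 / 4500 := by norm_num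

end Vale.Agent.Helper24.P302
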