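import Vale.Agent.Helper6.P302LP
import Vale.Agent.Helper24.P302.Defs5

/-!
# P302: the LP upper bound for the instance `inst5` (58 items)
-/

namespace Vale.Agent.Helper24.P302

open Vale.Agent.Helper7.P302

/-- The fractional solution: weight numerators (denominator `9300`) and configurations. -/
def cert5 : List (ℕ × List ℕ) := [
  (744, [655001, 655143, 3729855]),
  (8556, [655001, 655411, 3729582]),
  (2232, [655036, 655086, 3729866]),
  (7068, [655036, 655086, 3729871]),
  (2232, [655041, 655085, 3729871]),
  (7068, [655041, 655144, 3729813]),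
  (6696, [655060, 655070, 3729866]),
  (2604, [655060, 655085, 3729855]),
  (4650, [655068, 655068, 3729864]),
  (5952, [655070, 655070, 3729855]),
  (4650, [655078, 655082, 3729840]),
  (4650, [655078, 655084, 3729838]),
  (4650, [655080, 655080, 3729840]),
  (4650, [655081, 655081, 3729838]),
  (4650, [655082, 655084, 3729834]),
  (4650, [655083, 655083, 3729834]),
  (2232, [655085, 655085, 3729813]),
  (4650, [655133, 655139, 3729728]),
  (4650, [655133, 655143, 3729724]),
  (4650, [655136, 655136, 3729728]),
  (4650, [655138, 655138, 3729724]),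
  (2418, [655139, 655143, 3729717]),
  (2232, [655139, 655144, 3729717]),
  (4650, [655141, 655141, 3729717]),
  (744, [655143, 655143, 3729582]),
  (4650, [655400, 655406, 3729193]),
  (4650, [655400, 655410, 3729190]),
  (4650, [655403, 655403, 3729193]),
  (4650, [655405, 655405, 3729190]),
  (4650, [655406, 655410, 3729183]),
  (4650, [655408, 655408, 3729183]),
  (4650, [655817, 3729864]),
  (372, [655817, 3729866]),
  (2325, [655817, 2186000, 2186000]),
  (387, [655817, 1461000, 1461000, 1461000]),
  (3100, [1677000, 1677000, 1677000]),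
  (4650, [1660000, 1660000, 1710000]),
  (3489, [1461000, 1710000, 1726000]),
  (1161, [655817, 655817, 655817, 655817, 655817, 1710000]),
  (5811, [655817, 655817, 655817, 655817, 655817, 1726000]),
  (4650, [1427000, 1427000, 2186000]),
  (4650, [2429000, 2429000]),
  (744, [655411, 1443000, 1443000, 1461000]),
  (3906, [655817, 1443000, 1443000, 1461000])]

theorem cert5_mem : ∀ wl ∈ cert5, ∀ s ∈ wl.2, s ∈ itemsL5 := by decide

theorem cert5_size : ∀ wl ∈ cert5, wl.2.sum ≤ 5040000 := by decide

theorem cert5_cov : ∀ s ∈ itemsL5,
    9300 * itemsL5.count s ≤ (cert5.map (fun wl => wl.2.count s * wl.1)).sum := by decide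

theorem cert5_total : (cert5.map Prod.fst).sum = 174373 := by decide

/-- The configuration LP value of the instance is at most `174373 / 9300`. -/
theorem lp_le5 : LP inst5 ≤ 174373 / 9300 := by
  have h := Vale.Agent.Helper6.P302LP.lp_le_of_cert' 58 itemsL5 (by decide) 5040000 9300
    (by norm_num) (by norm_num) cert5 cert5_mem cert5_size cert5_cov
  rw [cert5_total] at h
  have e : inst5 = (fun i : Fin 58 => (itemsL5.getD i.1 0 : ℚ) / ((5040000 : ℕ) : ℚ)) := by
    funext i
    unfold inst5
    norm_num
  rw [e]
  calc _ ≤ ((174373 : ℕ) : ℝ) / ((9300 : ℕ) : ℝ) := h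
    _ = 174373 / 9300 := by norm_num

end Vale.Agent.Helper24.P302
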