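import Vale.Agent.Helper24.P302.Defs4

/-!
# P302: the structural lower bound `OPT ≥ 19` for the instance `inst4`

Given the combinatorial fact `hD` (no 14 index-disjoint pairs of positives in 14 distinct slots),
every packing of the instance uses at least 19 bins.  The proof is a weight count (the same
argument as in `Vale.Agent.Helper26.P302OptGe3`): bigs weigh 27, smalls 4, the outer items
9, 9, 9, 11, 11, 11, 14 (total 611); a bin has weight at most 31, except a bin with
exactly one big and two smalls, which has weight 35.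
-/

namespace Vale.Agent.Helper24.P302

open Finset Vale.Agent.Helper7.P302

/-- The scaled size of item `i` (bin capacity 5040000). -/
def sz4 (i : Fin 55) : ℕ := itemsL4.getD i.1 0

/-- Indicator of the bigs (items 0..14). -/
def isB4 (i : Fin 55) : ℕ := if i.1 < 15 then 1 else 0

/-- Indicator of the smalls (items 15..47). -/
def isS4 (i : Fin 55) : ℕ := if 15 ≤ i.1 ∧ i.1 < 48 then 1 else 0

/-- Indicator of the outer item 1440000. -/
def is4_1 (i : Fin 55) : ℕ := if i.1 = 48 then 1 else 0

/-- Indicator of the outer item 1461000. -/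
def is4_2 (i : Fin 55) : ℕ := if i.1 = 49 then 1 else 0

/-- Indicator of the outer item 1463000. -/
def is4_3 (i : Fin 55) : ℕ := if i.1 = 50 then 1 else 0

/-- Indicator of the outer item 1670000. -/
def is4_4 (i : Fin 55) : ℕ := if i.1 = 51 then 1 else 0

/-- Indicator of the outer item 1676000. -/
def is4_5 (i : Fin 55) : ℕ := if i.1 = 52 then 1 else 0

/-- Indicator of the outer item 1695000. -/
def is4_6 (i : Fin 55) : ℕ := if i.1 = 53 then 1 else 0

/-- Indicator of the outer item 2155000. -/
def is4_7 (i : Fin 55) : ℕ := if i.1 = 54 then 1 else 0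

/-- The weight of an item. -/
def wt4 (i : Fin 55) : ℕ := 27 * isB4 i + 4 * isS4 i + 9 * is4_1 i + 9 * is4_2 i + 9 * is4_3 i + 11 * is4_4 i + 11 * is4_5 i + 11 * is4_6 i + 14 * is4_7 i

theorem sz4_ge : ∀ i : Fin 55, 3749183 * isB4 i + 645001 * isS4 i + 1440000 * is4_1 i + 1461000 * is4_2 i + 1463000 * is4_3 i + 1670000 * is4_4 i + 1676000 * is4_5 i + 1695000 * is4_6 i + 2155000 * is4_7 i ≤ sz4 i := by decide

theorem wt4_total : ∑ i : Fin 55, wt4 i = 611 := by decide

theorem is4_1_total : ∑ i : Fin 55, is4_1 i = 1 := by decide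

theorem is4_2_total : ∑ i : Fin 55, is4_2 i = 1 := by decide

theorem is4_3_total : ∑ i : Fin 55, is4_3 i = 1 := by decide

theorem is4_4_total : ∑ i : Fin 55, is4_4 i = 1 := by decide

theorem is4_5_total : ∑ i : Fin 55, is4_5 i = 1 := by decide

theorem is4_6_total : ∑ i : Fin 55, is4_6 i = 1 := by decide

theorem is4_7_total : ∑ i : Fin 55, is4_7 i = 1 := by decide

theorem big_sz4 : ∀ i : Fin 55, i.1 < 15 → sz4 i + slotsL.getD i.1 0 = 3750000 := by decide

theorem small_sz4 : ∀ i : Fin 55, 15 ≤ i.1 → i.1 < 48 →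
    sz4 i = 645000 + posL4.getD (i.1 - 15) 0 := by decide

/-- The arithmetic of one bin: weight at most 31, except for one big with two smalls. -/
theorem bin_arith4 (a s c1 c2 c3 c4 c5 c6 c7 : ℕ)
    (h : 3749183 * a + 645001 * s + 1440000 * c1 + 1461000 * c2 + 1463000 * c3 + 1670000 * c4 + 1676000 * c5 + 1695000 * c6 + 2155000 * c7 ≤ 5040000)
    (h1 : c1 ≤ 1) (h2 : c2 ≤ 1) (h3 : c3 ≤ 1) (h4 : c4 ≤ 1) (h5 : c5 ≤ 1) (h6 : c6 ≤ 1) (h7 : c7 ≤ 1) :
    27 * a + 4 * s + 9 * c1 + 9 * c2 + 9 * c3 + 11 * c4 + 11 * c5 + 11 * c6 + 14 * c7 ≤ 31 ∨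
      (a = 1 ∧ s = 2 ∧ 27 * a + 4 * s + 9 * c1 + 9 * c2 + 9 * c3 + 11 * c4 + 11 * c5 + 11 * c6 + 14 * c7 = 35) := by
  have ha : a ≤ 1 := by omega
  interval_cases a <;> interval_cases c1 <;> interval_cases c2 <;> interval_cases c3 <;> interval_cases c4 <;> interval_cases c5 <;> interval_cases c6 <;> interval_cases c7 <;> omega

/-- Given `hD`, every packing of the instance uses at least 19 bins. -/
theorem opt_ge4
    (hD : ∀ (s : Fin 14 → Fin 15) (p q : Fin 14 → Fin 33), Function.Injective s →
      Function.Injective (Sum.elim p q) →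
      (∀ k, posL4.getD (p k) 0 + posL4.getD (q k) 0 ≤ slotsL.getD (s k) 0) → False) :
    ∀ (m : ℕ) (f : Fin 55 → Fin m), IsPacking inst4 m f → 19 ≤ m := by
  intro m f hf
  by_contra hm
  have hm17 : m ≤ 18 := by omega
  -- the size bound of every bin, in natural numbers
  have hbin : ∀ b : Fin m, ∑ i ∈ univ.filter (fun i => f i = b), sz4 i ≤ 5040000 := by
    intro b
    have h := hf b
    have h2 : ∑ i ∈ univ.filter (fun i => f i = b), inst4 i
        = ((∑ i ∈ univ.filter (fun i => f i = b), sz4 i : ℕ) : ℚ) / 5040000 := by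
      rw [Nat.cast_sum, Finset.sum_div]
      rfl
    rw [h2] at h
    have h3 : ((∑ i ∈ univ.filter (fun i => f i = b), sz4 i : ℕ) : ℚ) ≤ 5040000 := by
      rwa [div_le_one (by norm_num)] at h
    exact_mod_cast h3
  -- weight of a bin
  have hw : ∀ b : Fin m, ∑ i ∈ univ.filter (fun i => f i = b), wt4 i ≤ 31 ∨
      (∑ i ∈ univ.filter (fun i => f i = b), isB4 i = 1 ∧
        ∑ i ∈ univ.filter (fun i => f i = b), isS4 i = 2 ∧
        ∑ i ∈ univ.filter (fun i => f i = b), wt4 i = 35) := by
    intro b
    have h1 : ∑ i ∈ univ.filter (fun i => f i = b), (3749183 * isB4 i + 645001 * isS4 i + 1440000 * is4_1 i + 1461000 * is4_2 i + 1463000 * is4_3 i + 1670000 * is4_4 i + 1676000 * is4_5 i + 1695000 * is4_6 i + 2155000 * is4_7 i) ≤ 5040000 :=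
      le_trans (Finset.sum_le_sum fun i _ => sz4_ge i) (hbin b)
    have e1 : ∑ i ∈ univ.filter (fun i => f i = b), (3749183 * isB4 i + 645001 * isS4 i + 1440000 * is4_1 i + 1461000 * is4_2 i + 1463000 * is4_3 i + 1670000 * is4_4 i + 1676000 * is4_5 i + 1695000 * is4_6 i + 2155000 * is4_7 i)
        = 3749183 * ∑ i ∈ univ.filter (fun i => f i = b), isB4 i
          + 645001 * ∑ i ∈ univ.filter (fun i => f i = b), isS4 i
          + 1440000 * ∑ i ∈ univ.filter (fun i => f i = b), is4_1 i
          + 1461000 * ∑ i ∈ univ.filter (fun i => f i = b), is4_2 i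
          + 1463000 * ∑ i ∈ univ.filter (fun i => f i = b), is4_3 i
          + 1670000 * ∑ i ∈ univ.filter (fun i => f i = b), is4_4 i
          + 1676000 * ∑ i ∈ univ.filter (fun i => f i = b), is4_5 i
          + 1695000 * ∑ i ∈ univ.filter (fun i => f i = b), is4_6 i
          + 2155000 * ∑ i ∈ univ.filter (fun i => f i = b), is4_7 i := by
      simp only [Finset.sum_add_distrib, Finset.mul_sum]
    have e2 : ∑ i ∈ univ.filter (fun i => f i = b), wt4 i
        = 27 * ∑ i ∈ univ.filter (fun i => f i = b), isB4 i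
          + 4 * ∑ i ∈ univ.filter (fun i => f i = b), isS4 i
          + 9 * ∑ i ∈ univ.filter (fun i => f i = b), is4_1 i
          + 9 * ∑ i ∈ univ.filter (fun i => f i = b), is4_2 i
          + 9 * ∑ i ∈ univ.filter (fun i => f i = b), is4_3 i
          + 11 * ∑ i ∈ univ.filter (fun i => f i = b), is4_4 i
          + 11 * ∑ i ∈ univ.filter (fun i => f i = b), is4_5 i
          + 11 * ∑ i ∈ univ.filter (fun i => f i = b), is4_6 i
          + 14 * ∑ i ∈ univ.filter (fun i => f i = b), is4_7 i := by
      simp only [wt4, Finset.sum_add_distrib, Finset.mul_sum]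
    have b1 : ∑ i ∈ univ.filter (fun i => f i = b), is4_1 i ≤ 1 :=
      le_trans (Finset.sum_le_sum_of_subset (Finset.subset_univ _)) (le_of_eq is4_1_total)
    have b2 : ∑ i ∈ univ.filter (fun i => f i = b), is4_2 i ≤ 1 :=
      le_trans (Finset.sum_le_sum_of_subset (Finset.subset_univ _)) (le_of_eq is4_2_total)
    have b3 : ∑ i ∈ univ.filter (fun i => f i = b), is4_3 i ≤ 1 :=
      le_trans (Finset.sum_le_sum_of_subset (Finset.subset_univ _)) (le_of_eq is4_3_total)
    have b4 : ∑ i ∈ univ.filter (fun i => f i = b), is4_4 i ≤ 1 :=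
      le_trans (Finset.sum_le_sum_of_subset (Finset.subset_univ _)) (le_of_eq is4_4_total)
    have b5 : ∑ i ∈ univ.filter (fun i => f i = b), is4_5 i ≤ 1 :=
      le_trans (Finset.sum_le_sum_of_subset (Finset.subset_univ _)) (le_of_eq is4_5_total)
    have b6 : ∑ i ∈ univ.filter (fun i => f i = b), is4_6 i ≤ 1 :=
      le_trans (Finset.sum_le_sum_of_subset (Finset.subset_univ _)) (le_of_eq is4_6_total)
    have b7 : ∑ i ∈ univ.filter (fun i => f i = b), is4_7 i ≤ 1 :=
      le_trans (Finset.sum_le_sum_of_subset (Finset.subset_univ _)) (le_of_eq is4_7_total)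
    rw [e1] at h1
    rw [e2]
    exact bin_arith4 _ _ _ _ _ _ _ _ _ h1 b1 b2 b3 b4 b5 b6 b7
  -- total weight
  have htot : ∑ b : Fin m, ∑ i ∈ univ.filter (fun i => f i = b), wt4 i = 611 := by
    rw [Finset.sum_fiberwise]
    exact wt4_total
  -- the set of pair bins
  let P : Finset (Fin m) := univ.filter (fun b =>
    ∑ i ∈ univ.filter (fun i => f i = b), isB4 i = 1 ∧
      ∑ i ∈ univ.filter (fun i => f i = b), isS4 i = 2)
  have hP : 14 ≤ P.card := by
    have h1 : ∀ b : Fin m, ∑ i ∈ univ.filter (fun i => f i = b), wt4 i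
        ≤ 31 + 4 * (if b ∈ P then 1 else 0) := by
      intro b
      rcases hw b with h | ⟨hB, hS, h9⟩
      · omega
      · have hb : b ∈ P := by
          simp only [P, Finset.mem_filter, Finset.mem_univ, true_and]
          exact ⟨hB, hS⟩
        rw [if_pos hb]
        omega
    have h2 : ∑ b : Fin m, ∑ i ∈ univ.filter (fun i => f i = b), wt4 i
        ≤ ∑ b : Fin m, (31 + 4 * (if b ∈ P then 1 else 0)) :=
      Finset.sum_le_sum fun b _ => h1 b
    have h3 : ∑ b : Fin m, (31 + 4 * (if b ∈ P then 1 else 0)) = 31 * m + 4 * P.card := by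
      rw [Finset.sum_add_distrib, Finset.sum_const, Finset.card_univ, Fintype.card_fin,
        ← Finset.mul_sum, Finset.sum_boole]
      simp [mul_comm]
    rw [htot, h3] at h2
    omega
  -- fourteen distinct pair bins
  have hcard : Fintype.card (Fin 14) ≤ Fintype.card {b // b ∈ P} := by
    rw [Fintype.card_fin, Fintype.card_coe]
    exact hP
  obtain ⟨e⟩ := Function.Embedding.nonempty_of_card_le hcard
  -- the three items of each chosen pair bin
  have hitems : ∀ k : Fin 14, ∃ (i j j' : Fin 55), i.1 < 15 ∧ (15 ≤ j.1 ∧ j.1 < 48) ∧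
      (15 ≤ j'.1 ∧ j'.1 < 48) ∧ j ≠ j' ∧ f i = (e k).1 ∧ f j = (e k).1 ∧ f j' = (e k).1 ∧
      posL4.getD (j.1 - 15) 0 + posL4.getD (j'.1 - 15) 0 ≤ slotsL.getD i.1 0 := by
    intro k
    have hb := (e k).2
    simp only [P, Finset.mem_filter, Finset.mem_univ, true_and] at hb
    obtain ⟨hB, hS⟩ := hb
    have hB' : ((univ.filter (fun i => f i = (e k).1)).filter (fun i : Fin 55 => i.1 < 15)).card
        = 1 := by
      rw [Finset.card_filter]
      exact hB
    have hS' : ((univ.filter (fun i => f i = (e k).1)).filter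
        (fun i : Fin 55 => 15 ≤ i.1 ∧ i.1 < 48)).card = 2 := by
      rw [Finset.card_filter]
      exact hS
    obtain ⟨i, hi⟩ := Finset.card_eq_one.mp hB'
    obtain ⟨j, j', hjj, hj⟩ := Finset.card_eq_two.mp hS'
    have hi' : i ∈ (univ.filter (fun i => f i = (e k).1)).filter (fun i : Fin 55 => i.1 < 15) := by
      rw [hi]
      exact Finset.mem_singleton_self i
    have hj1 : j ∈ (univ.filter (fun i => f i = (e k).1)).filter
        (fun i : Fin 55 => 15 ≤ i.1 ∧ i.1 < 48) := by
      rw [hj]
      exact Finset.mem_insert_self _ _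
    have hj2 : j' ∈ (univ.filter (fun i => f i = (e k).1)).filter
        (fun i : Fin 55 => 15 ≤ i.1 ∧ i.1 < 48) := by
      rw [hj]
      exact Finset.mem_insert_of_mem (Finset.mem_singleton_self _)
    simp only [Finset.mem_filter, Finset.mem_univ, true_and] at hi' hj1 hj2
    obtain ⟨hfi, hi15⟩ := hi'
    obtain ⟨hfj, hj15⟩ := hj1
    obtain ⟨hfj', hj'15⟩ := hj2
    refine ⟨i, j, j', hi15, hj15, hj'15, hjj, hfi, hfj, hfj', ?_⟩
    -- the three items lie in the bin, so their sizes add up to at most the capacity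
    have hij : i ≠ j := by
      intro h
      rw [h] at hi15
      omega
    have hij' : i ≠ j' := by
      intro h
      rw [h] at hi15
      omega
    have hsub : ({i, j, j'} : Finset (Fin 55)) ⊆ univ.filter (fun x => f x = (e k).1) := by
      intro x hx
      simp only [Finset.mem_insert, Finset.mem_singleton] at hx
      simp only [Finset.mem_filter, Finset.mem_univ, true_and]
      rcases hx with rfl | rfl | rfl
      · exact hfi
      · exact hfj
      · exact hfj'
    have hsum : ∑ x ∈ ({i, j, j'} : Finset (Fin 55)), sz4 x ≤ 5040000 :=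
      le_trans (Finset.sum_le_sum_of_subset hsub) (hbin (e k).1)
    have hsum3 : ∑ x ∈ ({i, j, j'} : Finset (Fin 55)), sz4 x
        = sz4 i + (sz4 j + sz4 j') := by
      rw [Finset.sum_insert, Finset.sum_insert, Finset.sum_singleton]
      · simpa using hjj
      · simp only [Finset.mem_insert, Finset.mem_singleton, not_or]
        exact ⟨hij, hij'⟩
    rw [hsum3] at hsum
    have h1 := big_sz4 i hi15
    have h2 := small_sz4 j hj15.1 hj15.2
    have h3 := small_sz4 j' hj'15.1 hj'15.2
    omega
  choose i j j' hi hj hj' hne hfi hfj hfj' hfit using hitems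
  -- bins of different indices are different
  have hek : ∀ k k' : Fin 14, (e k).1 = (e k').1 → k = k' := by
    intro k k' h
    exact e.injective (Subtype.ext h)
  refine hD (fun k => ⟨(i k).1, hi k⟩) (fun k => ⟨(j k).1 - 15, by have := hj k; omega⟩)
    (fun k => ⟨(j' k).1 - 15, by have := hj' k; omega⟩) ?_ ?_ ?_
  · intro k k' h
    have h1 : (i k).1 = (i k').1 := by simpa using congrArg Fin.val h
    have h2 : i k = i k' := Fin.ext h1
    apply hek
    rw [← hfi k, ← hfi k', h2]
  · intro x y hxy
    rcases x with k | k <;> rcases y with k' | k'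
    · simp only [Sum.elim_inl] at hxy
      have h1 : (j k).1 - 15 = (j k').1 - 15 := by simpa using congrArg Fin.val hxy
      have h2 : j k = j k' := by
        apply Fin.ext
        have := hj k
        have := hj k'
        omega
      have h3 : k = k' := by
        apply hek
        rw [← hfj k, ← hfj k', h2]
      rw [h3]
    · simp only [Sum.elim_inl, Sum.elim_inr] at hxy
      have h1 : (j k).1 - 15 = (j' k').1 - 15 := by simpa using congrArg Fin.val hxy
      have h2 : j k = j' k' := by
        apply Fin.ext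
        have := hj k
        have := hj' k'
        omega
      have h3 : k = k' := by
        apply hek
        rw [← hfj k, ← hfj' k', h2]
      subst h3
      exact absurd h2 (hne k)
    · simp only [Sum.elim_inl, Sum.elim_inr] at hxy
      have h1 : (j' k).1 - 15 = (j k').1 - 15 := by simpa using congrArg Fin.val hxy
      have h2 : j' k = j k' := by
        apply Fin.ext
        have := hj' k
        have := hj k'
        omega
      have h3 : k = k' := by
        apply hek
        rw [← hfj' k, ← hfj k', h2]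
      subst h3
      exact absurd h2.symm (hne k)
    · simp only [Sum.elim_inr] at hxy
      have h1 : (j' k).1 - 15 = (j' k').1 - 15 := by simpa using congrArg Fin.val hxy
      have h2 : j' k = j' k' := by
        apply Fin.ext
        have := hj' k
        have := hj' k'
        omega
      have h3 : k = k' := by
        apply hek
        rw [← hfj' k, ← hfj' k', h2]
      rw [h3]
  · intro k
    exact hfit k

end Vale.Agent.Helper24.P302
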